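import Claimed.Agent.R156.PI.C07
import Claimed.Prelude.Def_0280

/-!
# PI leaf A01: words in the Artin group of Def_0280, the braid relations, the universal property.

`Artin M = PresentedGroup (braidRelators M)`, relators `alternating s t m * (alternating t s m)⁻¹`, `m = M s t`, where
`alternating s t n = of s * of t * of s * ...` (`n` letters, STARTS with `s`), while Mathlib's `alternatingWord i j n` ENDS with `j`.

PROOFS.
* `lift_alternating`: induction on `n` generalising `s t`: `alternatingWord t s (n+1) = (alternatingWord s t n).concat s`
  (`alternatingWord_succ`), so its reverse is `s :: (alternatingWord s t n).reverse`; `alternating s t (n+1) = of s * alternating t s n`.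
* `reverse_alternatingWord`: induction on `n` generalising `s t`, with `alternatingWord_succ` on one side and `alternatingWord_succ'` on the other.
* `liftA_aux`: a relator is `alternating s t m * (alternating t s m)⁻¹`; by `lift_alternating` and `reverse_alternatingWord` its image is
  `P * Q⁻¹` where `{P, Q}` are the two products in `hf s t` (in an order depending on the parity of `m`).
* `wordA_braid`: in `PresentedGroup` the relator is trivial (`PresentedGroup.one_of_mem` or `QuotientGroup.eq_one_iff` +
  `Subgroup.subset_normalClosure`); `PresentedGroup.mk _ = QuotientGroup.mk' _` is a hom which equals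
  `FreeGroup.lift (generator M)` on words (`generator M s = PresentedGroup.of s = mk (FreeGroup.of s)`); then as in `liftA_aux`.
-/

set_option autoImplicit false

namespace Claimed.Agent.R156.PI

open Claims.C0280 Claims.C0280.HarmonicArtin Claims.C0280.HarmonicArtin.ParabolicIntersections
open CoxeterSystem

variable {S : Type} (M : CoxeterMatrix S)

/-- the element of the Artin group spelled by a positive word -/
def wordA (ω : List S) : Artin M := (ω.map (generator M)).prod

theorem lift_alternating {G : Type*} [Group G] (f : S → G) (s t : S) (n : ℕ) :
    FreeGroup.lift f (alternating s t n) = (((alternatingWord t s n).reverse).map f).prod := by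
  induction n generalizing s t with
  | zero => simp [alternating, alternatingWord]
  | succ n ih =>
    rw [alternatingWord_succ, List.concat_eq_append, List.reverse_append]
    show FreeGroup.lift f (FreeGroup.of s * alternating t s n) = _
    rw [map_mul, FreeGroup.lift_apply_of, ih t s]
    simp

theorem reverse_alternatingWord (s t : S) (n : ℕ) :
    (alternatingWord t s n).reverse = if Even n then alternatingWord s t n else alternatingWord t s n := by
  induction n generalizing s t with
  | zero => simp [alternatingWord]
  | succ n ih =>
    have e : (alternatingWord t s (n + 1)).reverse = s :: (alternatingWord s t n).reverse := by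
      rw [alternatingWord_succ, List.concat_eq_append, List.reverse_append]
      simp
    rw [e, ih t s]
    by_cases h : Even n
    · have h' : ¬ Even (n + 1) := by
        rw [Nat.even_add_one]; exact not_not.2 h
      rw [if_pos h, if_neg h', alternatingWord_succ' t s n, if_pos h]
    · have h' : Even (n + 1) := by
        rw [Nat.even_add_one]; exact h
      rw [if_neg h, if_pos h', alternatingWord_succ' s t n, if_neg h]

theorem a01_lift_alt {G : Type*} [Group G] (f : S → G) (s t : S) (n : ℕ) :
    FreeGroup.lift f (alternating s t n)
      = if Even n then ((alternatingWord s t n).map f).prod else ((alternatingWord t s n).map f).prod := by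
  rw [lift_alternating, reverse_alternatingWord]
  split_ifs <;> rfl

theorem a01_lift_eq {G : Type*} [Group G] (f : S → G) (s t : S) (n : ℕ)
    (hf : ((alternatingWord s t n).map f).prod = ((alternatingWord t s n).map f).prod) :
    FreeGroup.lift f (alternating s t n) = FreeGroup.lift f (alternating t s n) := by
  rw [a01_lift_alt, a01_lift_alt]
  split_ifs
  · exact hf
  · exact hf.symm

theorem liftA_aux {G : Type*} [Group G] (f : S → G)
    (hf : ∀ s t, ((alternatingWord s t (M s t)).map f).prod
      = ((alternatingWord t s (M s t)).map f).prod) :
    ∀ r ∈ braidRelators M, FreeGroup.lift f r = 1 := by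
  rintro r ⟨⟨s, t⟩, rfl⟩
  show FreeGroup.lift f (alternating s t (M s t) * (alternating t s (M s t))⁻¹) = 1
  rw [map_mul, map_inv, a01_lift_eq f s t (M s t) (hf s t), mul_inv_cancel]

theorem a01_mk_eq (x : FreeGroup S) :
    (PresentedGroup.mk (braidRelators M) x : Artin M) = FreeGroup.lift (generator M) x := by
  have : (PresentedGroup.mk (braidRelators M)) = FreeGroup.lift (generator M) := by
    ext s
    simp [generator, PresentedGroup.of]
  rw [this]

theorem wordA_braid (s t : S) :
    wordA M (alternatingWord s t (M s t)) = wordA M (alternatingWord t s (M s t)) := by
  have h1 : (PresentedGroup.mk (braidRelators M)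
      (alternating s t (M s t) * (alternating t s (M s t))⁻¹) : Artin M) = 1 :=
    PresentedGroup.one_of_mem ⟨(s, t), rfl⟩
  rw [a01_mk_eq, map_mul, map_inv, mul_inv_eq_one, a01_lift_alt, a01_lift_alt] at h1
  unfold wordA
  split_ifs at h1
  · exact h1
  · exact h1.symm

end Claimed.Agent.R156.PI
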