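import Claimed.Agent.R156.PI.A01

/-!
# PI leaf A02: `liftA`, the projection `toW : Artin M →* W`, induction principles.

PROOFS.
* `liftA_generator`: `PresentedGroup.toGroup.of`.
* `toW_aux`: this is `cs.wordProd_braidWord_eq s t` after unfolding `wordProd`, `braidWord` and rewriting `M.symmetric t s`.
* `closure_generator`: `PresentedGroup.closure_range_of`.
* `parabolic_induction`: `Subgroup.closure_induction_left`-type argument: show `∀ g ∈ closure, ∀ h, p h → p (g * h)` by
  `Subgroup.closure_induction` (generator: `mul`; one; product: `mul_assoc`; inverse: needs the statement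
  `∀ h, p h → p (g⁻¹ * h)` simultaneously, so prove the conjunction of both), then take `h = 1`.
* `artin_induction`: `parabolic_induction` with `X = univ` and `artinParabolic_univ`.
* `toW_mem`, `exists_lift`: `Subgroup.closure_induction`; or `Subgroup.map_closure`/`MonoidHom.map_closure`:
  `(artinParabolic M X).map (toW M) = WP cs X` because `toW ∘ generator = simple` (`Set.image_image`).
-/

set_option autoImplicit false

namespace Claimed.Agent.R156.PI

open Claims.C0280 Claims.C0280.HarmonicArtin Claims.C0280.HarmonicArtin.ParabolicIntersections
open CoxeterSystem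

variable {S : Type} (M : CoxeterMatrix S)

/-- universal property of the Artin group -/
def liftA {G : Type*} [Group G] (f : S → G)
    (hf : ∀ s t, ((alternatingWord s t (M s t)).map f).prod
      = ((alternatingWord t s (M s t)).map f).prod) : Artin M →* G :=
  PresentedGroup.toGroup (rels := braidRelators M) (f := f) (liftA_aux M f hf)

theorem liftA_generator {G : Type*} [Group G] (f : S → G)
    (hf : ∀ s t, ((alternatingWord s t (M s t)).map f).prod
      = ((alternatingWord t s (M s t)).map f).prod) (s : S) :
    liftA M f hf (generator M s) = f s := by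
  unfold liftA generator
  exact PresentedGroup.toGroup.of (liftA_aux M f hf)

theorem toW_aux (s t : S) :
    ((alternatingWord s t (M s t)).map M.toCoxeterSystem.simple).prod
      = ((alternatingWord t s (M s t)).map M.toCoxeterSystem.simple).prod := by
  have h := M.toCoxeterSystem.wordProd_braidWord_eq s t
  unfold braidWord at h
  rw [M.symmetric t s] at h
  simpa [wordProd] using h

/-- the projection of the Artin group onto the Coxeter group -/
def toW : Artin M →* M.Group := liftA M M.toCoxeterSystem.simple (toW_aux M)

theorem toW_generator (s : S) : toW M (generator M s) = M.toCoxeterSystem.simple s := by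
  unfold toW
  exact liftA_generator M _ _ s

theorem toW_wordA (ω : List S) : toW M (wordA M ω) = M.toCoxeterSystem.wordProd ω := by
  induction ω with
  | nil => simp [wordA]
  | cons a ω ih =>
    have h1 : wordA M (a :: ω) = generator M a * wordA M ω := by simp [wordA]
    rw [h1, map_mul, ih, toW_generator, wordProd_cons]

theorem generator_mem {X : Set S} {x : S} (hx : x ∈ X) : generator M x ∈ artinParabolic M X := by
  unfold artinParabolic
  exact Subgroup.subset_closure (Set.mem_image_of_mem _ hx)

theorem artinParabolic_mono {X Y : Set S} (h : X ⊆ Y) : artinParabolic M X ≤ artinParabolic M Y := by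
  unfold artinParabolic
  exact Subgroup.closure_mono (Set.image_mono h)

theorem artinParabolic_univ : artinParabolic M Set.univ = ⊤ := by
  unfold artinParabolic
  rw [Set.image_univ]
  exact PresentedGroup.closure_range_of (braidRelators M)

theorem parabolic_induction {X : Set S} {p : Artin M → Prop} (one : p 1)
    (mul : ∀ s ∈ X, ∀ g, p g → p (generator M s * g))
    (inv : ∀ s ∈ X, ∀ g, p g → p ((generator M s)⁻¹ * g)) {g : Artin M}
    (hg : g ∈ artinParabolic M X) : p g := by
  have key : ∀ g ∈ artinParabolic M X, (∀ h, p h → p (g * h)) ∧ (∀ h, p h → p (g⁻¹ * h)) := by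
    intro g hg
    unfold artinParabolic at hg
    induction hg using Subgroup.closure_induction with
    | mem x hx =>
      obtain ⟨s, hs, rfl⟩ := hx
      exact ⟨mul s hs, inv s hs⟩
    | one => simp
    | mul x y _ _ hx hy =>
      refine ⟨fun h hh => ?_, fun h hh => ?_⟩
      · rw [mul_assoc]; exact hx.1 _ (hy.1 _ hh)
      · rw [mul_inv_rev, mul_assoc]; exact hy.2 _ (hx.2 _ hh)
    | inv x _ hx =>
      refine ⟨hx.2, fun h hh => ?_⟩
      rw [inv_inv]; exact hx.1 _ hh
  have := (key g hg).1 1 one
  rwa [mul_one] at this

theorem artin_induction {p : Artin M → Prop} (one : p 1)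
    (mul : ∀ s g, p g → p (generator M s * g))
    (inv : ∀ s g, p g → p ((generator M s)⁻¹ * g)) (g : Artin M) : p g := by
  refine parabolic_induction M (X := Set.univ) one (fun s _ => mul s) (fun s _ => inv s) ?_
  rw [artinParabolic_univ]
  exact Subgroup.mem_top g

private theorem a02_map (X : Set S) :
    (artinParabolic M X).map (toW M) = WP M.toCoxeterSystem X := by
  unfold artinParabolic WP
  rw [MonoidHom.map_closure, Set.image_image]
  exact congrArg Subgroup.closure (Set.image_congr (fun s _ => toW_generator M s))

theorem toW_mem {X : Set S} {a : Artin M} (ha : a ∈ artinParabolic M X) :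
    toW M a ∈ WP M.toCoxeterSystem X := by
  rw [← a02_map]
  exact Subgroup.mem_map_of_mem _ ha

theorem exists_lift {X : Set S} {u : M.Group} (hu : u ∈ WP M.toCoxeterSystem X) :
    ∃ a ∈ artinParabolic M X, toW M a = u := by
  rw [← a02_map] at hu
  exact Subgroup.mem_map.mp hu

end Claimed.Agent.R156.PI
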