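import Claimed.Agent.R156.PI.A02

/-!
# PI leaf A03: the positive lift `tau : W → Artin M` (well defined by Matsumoto, C07).

PROOFS.  `cs := M.toCoxeterSystem`.
* `tau_wordProd`: `Classical.choose_spec (cs.exists_isReduced (π ω))` gives a reduced word `ω₀` with `π ω = π ω₀`;
  `matsumoto cs (generator M) (wordA_braid M) ..` (unfold `wordA`).
* `tau_simple_mul`: take a reduced word `ω` of `w`; `s :: ω` is reduced because `ℓ(s w) = ℓ w + 1` (`cs.not_isLeftDescent_iff`,
  `wordProd_cons`); apply `tau_wordProd` twice.  `tau_mul_simple`: same with `ω.concat s` / `ω ++ [s]`.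
* `toW_tau`: `toW_wordA` and the choose_spec.   * `tau_one`: `tau_wordProd` for `[]`.
-/

set_option autoImplicit false

namespace Claimed.Agent.R156.PI

open Claims.C0280 Claims.C0280.HarmonicArtin Claims.C0280.HarmonicArtin.ParabolicIntersections
open CoxeterSystem

variable {S : Type} (M : CoxeterMatrix S)

/-- the positive lift of an element of the Coxeter group -/
noncomputable def tau (w : M.Group) : Artin M :=
  wordA M (Classical.choose (M.toCoxeterSystem.exists_isReduced w))

theorem tau_wordProd {ω : List S} (h : M.toCoxeterSystem.IsReduced ω) :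
    tau M (M.toCoxeterSystem.wordProd ω) = wordA M ω := by
  have hs := Classical.choose_spec (M.toCoxeterSystem.exists_isReduced (M.toCoxeterSystem.wordProd ω))
  exact matsumoto M.toCoxeterSystem (generator M) (wordA_braid M) hs.1 h hs.2.symm

theorem tau_one : tau M 1 = 1 := by
  have h : M.toCoxeterSystem.IsReduced ([] : List S) := by
    simp [CoxeterSystem.IsReduced]
  have := tau_wordProd M h
  simpa [wordA] using this

theorem tau_simple_mul {w : M.Group} {s : S} (h : ¬ M.toCoxeterSystem.IsLeftDescent w s) :
    tau M (M.toCoxeterSystem.simple s * w) = generator M s * tau M w := by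
  obtain ⟨ω, hω, rfl⟩ := M.toCoxeterSystem.exists_isReduced w
  have h1 : M.toCoxeterSystem.IsReduced (s :: ω) := by
    have h2 := (M.toCoxeterSystem.not_isLeftDescent_iff).1 h
    unfold CoxeterSystem.IsReduced
    rw [CoxeterSystem.wordProd_cons, h2, hω.eq, List.length_cons]
  rw [← CoxeterSystem.wordProd_cons, tau_wordProd M h1, tau_wordProd M hω]
  simp [wordA]

theorem tau_mul_simple {w : M.Group} {s : S} (h : ¬ M.toCoxeterSystem.IsRightDescent w s) :
    tau M (w * M.toCoxeterSystem.simple s) = tau M w * generator M s := by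
  obtain ⟨ω, hω, rfl⟩ := M.toCoxeterSystem.exists_isReduced w
  have h1 : M.toCoxeterSystem.IsReduced (ω ++ [s]) := by
    have h2 := (M.toCoxeterSystem.not_isRightDescent_iff).1 h
    unfold CoxeterSystem.IsReduced
    rw [CoxeterSystem.wordProd_append, CoxeterSystem.wordProd_singleton, h2, hω.eq]
    simp
  have e : M.toCoxeterSystem.wordProd ω * M.toCoxeterSystem.simple s
      = M.toCoxeterSystem.wordProd (ω ++ [s]) := by
    rw [CoxeterSystem.wordProd_append, CoxeterSystem.wordProd_singleton]
  rw [e, tau_wordProd M h1, tau_wordProd M hω]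
  simp [wordA]

theorem toW_tau (w : M.Group) : toW M (tau M w) = w := by
  have hs := Classical.choose_spec (M.toCoxeterSystem.exists_isReduced w)
  unfold tau
  rw [toW_wordA]
  exact hs.2.symm

end Claimed.Agent.R156.PI
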