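import Claimed.Agent.R156.PI.A03

/-!
# PI leaf A04: API of `conjugate` (Def_0280: `conjugate g P = P.comap (MulAut.conj g⁻¹).toMonoidHom`, i.e. `g P g⁻¹`) and `IsParabolic`.

PROOFS.  `mem_conj` is `Subgroup.mem_comap` + `MulAut.conj_apply` + `inv_inv`.  Everything else: `ext x`, `simp only [mem_conj, ...]`,
`group` / `mul_assoc` manipulations and `Subgroup.mul_mem`, `Subgroup.inv_mem`
(e.g. for `conj_mul_of_mem`: `(g a)⁻¹ x (g a) = a⁻¹ (g⁻¹ x g) a`, and `a⁻¹ y a ∈ P ↔ y ∈ P` for `a ∈ P`).
-/

set_option autoImplicit false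

namespace Claimed.Agent.R156.PI

open Claims.C0280 Claims.C0280.HarmonicArtin Claims.C0280.HarmonicArtin.ParabolicIntersections
open CoxeterSystem

variable {S : Type} (M : CoxeterMatrix S)

section conj
variable {G : Type*} [Group G]

theorem mem_conj (g x : G) (P : Subgroup G) : x ∈ conjugate g P ↔ g⁻¹ * x * g ∈ P := by
  unfold conjugate
  rw [Subgroup.mem_comap]
  simp

theorem conj_one (P : Subgroup G) : conjugate 1 P = P := by
  ext x
  simp [mem_conj]

theorem conj_conj (g h : G) (P : Subgroup G) : conjugate g (conjugate h P) = conjugate (g * h) P := by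
  ext x
  simp only [mem_conj, mul_inv_rev, mul_assoc]

theorem conj_mono (g : G) {P Q : Subgroup G} (h : P ≤ Q) : conjugate g P ≤ conjugate g Q := by
  intro x hx
  rw [mem_conj] at hx ⊢
  exact h hx

theorem conj_le_conj_iff (g : G) {P Q : Subgroup G} : conjugate g P ≤ conjugate g Q ↔ P ≤ Q := by
  refine ⟨fun h => ?_, conj_mono g⟩
  have h2 := conj_mono g⁻¹ h
  rwa [conj_conj, conj_conj, inv_mul_cancel, conj_one, conj_one] at h2

theorem conj_inj (g : G) {P Q : Subgroup G} : conjugate g P = conjugate g Q ↔ P = Q := by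
  refine ⟨fun h => ?_, fun h => by rw [h]⟩
  exact le_antisymm ((conj_le_conj_iff g).1 h.le) ((conj_le_conj_iff g).1 h.ge)

theorem conj_inf (g : G) (P Q : Subgroup G) : conjugate g (P ⊓ Q) = conjugate g P ⊓ conjugate g Q := by
  ext x
  simp only [mem_conj, Subgroup.mem_inf]

theorem conj_of_mem {a : G} {P : Subgroup G} (ha : a ∈ P) : conjugate a P = P := by
  ext x
  rw [mem_conj]
  constructor
  · intro h
    have h2 := P.mul_mem (P.mul_mem ha h) (P.inv_mem ha)
    have h3 : a * (a⁻¹ * x * a) * a⁻¹ = x := by group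
    rwa [h3] at h2
  · intro h
    exact P.mul_mem (P.mul_mem (P.inv_mem ha) h) ha

theorem conj_mul_of_mem (g : G) {a : G} {P : Subgroup G} (ha : a ∈ P) :
    conjugate (g * a) P = conjugate g P := by
  rw [← conj_conj, conj_of_mem ha]

theorem conj_le_of_mem {a : G} {P Q : Subgroup G} (ha : a ∈ Q) (h : P ≤ Q) : conjugate a P ≤ Q := by
  have h2 := conj_mono a h
  rwa [conj_of_mem ha] at h2

end conj

theorem isParabolic_conj (X : Set S) (g : Artin M) : IsParabolic M (conjugate g (artinParabolic M X)) :=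
  ⟨X, g, rfl⟩

theorem isParabolic_std (X : Set S) : IsParabolic M (artinParabolic M X) :=
  ⟨X, 1, (conj_one _).symm⟩

theorem isParabolic_conj_of {P : Subgroup (Artin M)} (h : IsParabolic M P) (g : Artin M) :
    IsParabolic M (conjugate g P) := by
  obtain ⟨X, k, rfl⟩ := h
  exact ⟨X, g * k, conj_conj g k _⟩

end Claimed.Agent.R156.PI
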