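import Claimed.Agent.R156.PI.A04

/-!
# PI leaf G01: the Godelle-Paris action, one generator.

`DX M X` = right-`X`-reduced elements `d` of `W` (representatives of `W / W_X`).  The generator `s` acts on `DX M X × Artin M` by
`(d, h) ↦ (s d, h)` if `s d` is again right-`X`-reduced, and `(d, h) ↦ (d, x h)` if `s d = d x`, `x ∈ X` (Deodhar, C04).

PROOFS.
* `mv_lb_cases`: `by_cases h : RRed cs X (s * d.1)`; `simp [mv, lb, h]`; in the negative case use
  `Classical.choose_spec ((deodhar cs d.2 s).resolve_left h)`.
* `mv_mv`, `lb_mv`: `by_cases h`.  Positive case: `mv s d = ⟨s * d.1, h⟩` and `s * (s * d.1) = d.1` (`simple_mul_simple_cancel_left`) is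
  right-`X`-reduced by `d.2`, so `mv s (mv s d) = ⟨s * (s * d.1), _⟩ = d` (`Subtype.ext`) and both labels are `1`.  Negative case: `mv s d = d`.
-/

set_option autoImplicit false

namespace Claimed.Agent.R156.PI

open Claims.C0280 Claims.C0280.HarmonicArtin Claims.C0280.HarmonicArtin.ParabolicIntersections
open CoxeterSystem

variable {S : Type} (M : CoxeterMatrix S)

/-- right-`X`-reduced elements of the Coxeter group -/
def DX (X : Set S) : Type := {d : M.Group // RRed M.toCoxeterSystem X d}

/-- the base point -/
def DX.one (X : Set S) : DX M X := ⟨1, rRed_one _ X⟩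

open Classical in
/-- how `s` moves the representative `d` -/
noncomputable def mv (X : Set S) (s : S) (d : DX M X) : DX M X :=
  if h : RRed M.toCoxeterSystem X (M.toCoxeterSystem.simple s * d.1) then ⟨_, h⟩ else d

open Classical in
/-- the label picked up when `s` acts at `d` -/
noncomputable def lb (X : Set S) (s : S) (d : DX M X) : Artin M :=
  if h : RRed M.toCoxeterSystem X (M.toCoxeterSystem.simple s * d.1) then 1
  else generator M (Classical.choose ((deodhar M.toCoxeterSystem d.2 s).resolve_left h))

private theorem g01_mv_pos (X : Set S) (s : S) (d : DX M X)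
    (h : RRed M.toCoxeterSystem X (M.toCoxeterSystem.simple s * d.1)) :
    mv M X s d = ⟨M.toCoxeterSystem.simple s * d.1, h⟩ := dif_pos h

private theorem g01_mv_neg (X : Set S) (s : S) (d : DX M X)
    (h : ¬ RRed M.toCoxeterSystem X (M.toCoxeterSystem.simple s * d.1)) :
    mv M X s d = d := dif_neg h

private theorem g01_lb_pos (X : Set S) (s : S) (d : DX M X)
    (h : RRed M.toCoxeterSystem X (M.toCoxeterSystem.simple s * d.1)) :
    lb M X s d = 1 := dif_pos h

private theorem g01_lb_neg (X : Set S) (s : S) (d : DX M X)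
    (h : ¬ RRed M.toCoxeterSystem X (M.toCoxeterSystem.simple s * d.1)) :
    lb M X s d
      = generator M (Classical.choose ((deodhar M.toCoxeterSystem d.2 s).resolve_left h)) :=
  dif_neg h

private theorem g01_back (X : Set S) (s : S) (d : DX M X)
    (h : RRed M.toCoxeterSystem X (M.toCoxeterSystem.simple s * d.1)) :
    RRed M.toCoxeterSystem X (M.toCoxeterSystem.simple s * (mv M X s d).1) := by
  rw [g01_mv_pos M X s d h]
  show RRed M.toCoxeterSystem X (M.toCoxeterSystem.simple s * (M.toCoxeterSystem.simple s * d.1))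
  rw [M.toCoxeterSystem.simple_mul_simple_cancel_left s]
  exact d.2

theorem mv_lb_cases (X : Set S) (s : S) (d : DX M X) :
    ((mv M X s d).1 = M.toCoxeterSystem.simple s * d.1 ∧ lb M X s d = 1) ∨
    (∃ x ∈ X, M.toCoxeterSystem.simple s * d.1 = d.1 * M.toCoxeterSystem.simple x ∧
      mv M X s d = d ∧ lb M X s d = generator M x) := by
  by_cases h : RRed M.toCoxeterSystem X (M.toCoxeterSystem.simple s * d.1)
  · left
    exact ⟨by rw [g01_mv_pos M X s d h], g01_lb_pos M X s d h⟩
  · right
    have hsp := Classical.choose_spec ((deodhar M.toCoxeterSystem d.2 s).resolve_left h)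
    exact ⟨_, hsp.1, hsp.2, g01_mv_neg M X s d h, g01_lb_neg M X s d h⟩

theorem mv_mv (X : Set S) (s : S) (d : DX M X) : mv M X s (mv M X s d) = d := by
  by_cases h : RRed M.toCoxeterSystem X (M.toCoxeterSystem.simple s * d.1)
  · have h2 := g01_back M X s d h
    rw [g01_mv_pos M X s _ h2]
    apply Subtype.ext
    show M.toCoxeterSystem.simple s * (mv M X s d).1 = d.1
    rw [g01_mv_pos M X s d h]
    exact M.toCoxeterSystem.simple_mul_simple_cancel_left s
  · rw [g01_mv_neg M X s d h, g01_mv_neg M X s d h]

theorem lb_mv (X : Set S) (s : S) (d : DX M X) : lb M X s (mv M X s d) = lb M X s d := by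
  by_cases h : RRed M.toCoxeterSystem X (M.toCoxeterSystem.simple s * d.1)
  · rw [g01_lb_pos M X s _ (g01_back M X s d h), g01_lb_pos M X s d h]
  · rw [g01_mv_neg M X s d h]

/-- the action of the generator `s` -/
noncomputable def Tm (X : Set S) (s : S) : Equiv.Perm (DX M X × Artin M) where
  toFun p := (mv M X s p.1, lb M X s p.1 * p.2)
  invFun p := (mv M X s p.1, (lb M X s p.1)⁻¹ * p.2)
  left_inv p := by simp [mv_mv, lb_mv]
  right_inv p := by simp [mv_mv, lb_mv]

theorem Tm_apply (X : Set S) (s : S) (d : DX M X) (h : Artin M) :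
    Tm M X s (d, h) = (mv M X s d, lb M X s d * h) := rfl

theorem Tm_symm_apply (X : Set S) (s : S) (d : DX M X) (h : Artin M) :
    (Tm M X s).symm (d, h) = (mv M X s d, (lb M X s d)⁻¹ * h) := rfl

end Claimed.Agent.R156.PI
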