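import Claimed.Agent.R156.PI.G01

/-!
# PI leaf G02: the action of a REDUCED positive word; the braid relations for `Tm`.

PROOFS.  `cs := M.toCoxeterSystem`, products in `Equiv.Perm` are compositions (`Equiv.Perm.mul_apply`), so
`((s :: ω).map Tm).prod p = Tm s ((ω.map Tm).prod p)`.
* `Tw_reduced`: induction on `ω`.  `[]`: `d' = d`, `v = 1`, `tau_one`.  `s :: ω`: `ω` is reduced (`IsReduced.drop 1`), the induction hypothesis gives
  `(d₁, v₁)` with `π ω * d = d₁ * v₁`.  `mv_lb_cases X s d₁`:
  (a) moved: `d' = mv s d₁`, `v = v₁`: `π (s :: ω) * d = s * (d₁ * v₁) = (s * d₁) * v₁`;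
  (b) fixed, `s * d₁ = d₁ * x`: `d' = d₁`, `v = x * v₁ ∈ W_X`, `s * d₁ * v₁ = d₁ * (x * v₁)`, and
      `tau (x * v₁) = generator x * tau v₁` by `tau_simple_mul` and `not_leftDescent_of_step` (C05) with `w = π ω`;
      its hypothesis `¬ IsLeftDescent (π ω) s` holds because `s :: ω` is reduced: `ℓ(s * π ω) = ω.length + 1 > ℓ(π ω)`.
* `Tm_braid`: if `M s t = 0` both words are `[]`.  Otherwise both words are reduced (`isReduced_braidWord`, `M.symmetric`) with the same product
  (`toW_aux` / `wordProd_braidWord_eq`).  `Equiv.ext`, point `(d, h)`; `Tw_reduced` twice gives `(d', v)`, `(d'', v')` with `d' * v = d'' * v'`;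
  `decomp_unique` (C04) gives `d' = d''` (`Subtype.ext`), `v = v'`.
-/

set_option autoImplicit false

namespace Claimed.Agent.R156.PI

open Claims.C0280 Claims.C0280.HarmonicArtin Claims.C0280.HarmonicArtin.ParabolicIntersections
open CoxeterSystem

variable {S : Type} (M : CoxeterMatrix S)

theorem Tw_reduced (X : Set S) {ω : List S} (hω : M.toCoxeterSystem.IsReduced ω) (d : DX M X) :
    ∃ (d' : DX M X) (v : M.Group), v ∈ WP M.toCoxeterSystem X ∧
      M.toCoxeterSystem.wordProd ω * d.1 = d'.1 * v ∧
      ∀ h : Artin M, (ω.map (Tm M X)).prod (d, h) = (d', tau M v * h) := by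
  induction ω with
  | nil =>
    refine ⟨d, 1, Subgroup.one_mem _, by simp, ?_⟩
    intro h
    simp [tau_one]
  | cons s ω ih =>
    have hω' : M.toCoxeterSystem.IsReduced ω := by
      have := hω.drop 1
      simpa using this
    obtain ⟨d₁, v₁, hv₁, h1, h2⟩ := ih hω'
    have hprod : ∀ h : Artin M, ((s :: ω).map (Tm M X)).prod (d, h)
        = (mv M X s d₁, lb M X s d₁ * (tau M v₁ * h)) := by
      intro h
      rw [List.map_cons, List.prod_cons, Equiv.Perm.mul_apply, h2 h, Tm_apply]
    rcases mv_lb_cases M X s d₁ with ⟨hmv, hlb⟩ | ⟨x, hx, hcomm, hmv, hlb⟩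
    · refine ⟨mv M X s d₁, v₁, hv₁, ?_, ?_⟩
      · rw [wordProd_cons, mul_assoc, h1, hmv, mul_assoc]
      · intro h
        rw [hprod h, hlb, one_mul]
    · refine ⟨d₁, M.toCoxeterSystem.simple x * v₁,
        Subgroup.mul_mem _ (simple_mem_WP _ hx) hv₁, ?_, ?_⟩
      · rw [wordProd_cons, mul_assoc, h1, ← mul_assoc, hcomm, mul_assoc]
      · intro h
        have hnd : ¬ M.toCoxeterSystem.IsLeftDescent (M.toCoxeterSystem.wordProd ω) s := by
          unfold CoxeterSystem.IsLeftDescent
          rw [← wordProd_cons]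
          have e1 : M.toCoxeterSystem.length (M.toCoxeterSystem.wordProd (s :: ω)) = (s :: ω).length := hω
          have e2 : M.toCoxeterSystem.length (M.toCoxeterSystem.wordProd ω) = ω.length := hω'
          rw [e1, e2]
          simp
        have hnl := not_leftDescent_of_step M.toCoxeterSystem d.2 d₁.2 hv₁ hx hnd h1 hcomm
        rw [hprod h, hmv, hlb, tau_simple_mul M hnl, mul_assoc]

theorem Tm_braid (X : Set S) (s t : S) :
    ((alternatingWord s t (M s t)).map (Tm M X)).prod
      = ((alternatingWord t s (M s t)).map (Tm M X)).prod := by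
  by_cases h0 : M s t = 0
  · simp [h0, alternatingWord]
  · have r1 : M.toCoxeterSystem.IsReduced (alternatingWord s t (M s t)) :=
      isReduced_braidWord _ s t h0
    have r2 : M.toCoxeterSystem.IsReduced (alternatingWord t s (M s t)) := by
      have h0' : M t s ≠ 0 := by rwa [M.symmetric t s]
      have := isReduced_braidWord M.toCoxeterSystem t s h0'
      rwa [M.symmetric t s] at this
    have e : M.toCoxeterSystem.wordProd (alternatingWord s t (M s t))
        = M.toCoxeterSystem.wordProd (alternatingWord t s (M s t)) := toW_aux M s t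
    apply Equiv.ext
    rintro ⟨d, h⟩
    obtain ⟨d', v, hv, h1, h2⟩ := Tw_reduced M X r1 d
    obtain ⟨d'', v', hv', h1', h2'⟩ := Tw_reduced M X r2 d
    have hh : d'.1 * v = d''.1 * v' := by rw [← h1, ← h1', e]
    obtain ⟨hd, hvv⟩ := decomp_unique M.toCoxeterSystem d'.2 d''.2 hv hv' hh
    rw [h2 h, h2' h, Subtype.ext hd, hvv]

/-- THE GODELLE-PARIS ACTION of the Artin group on `DX M X × Artin M` -/
noncomputable def Phi (X : Set S) : Artin M →* Equiv.Perm (DX M X × Artin M) :=
  liftA M (Tm M X) (Tm_braid M X)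

/-- the Godelle-Paris retraction `π_X : Artin M → A_X` (a set map) -/
noncomputable def piX (X : Set S) (g : Artin M) : Artin M := (Phi M X g (DX.one M X, 1)).2

/-- `K_X`: the stabiliser of the base point (= kernel of `π_X` on `p⁻¹(W_X)`) -/
def InK (X : Set S) (c : Artin M) : Prop := Phi M X c (DX.one M X, 1) = (DX.one M X, 1)

end Claimed.Agent.R156.PI
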