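import Claimed.Agent.R156.PI.G02

/-!
# PI leaf G03: basic properties of the Godelle-Paris action `Phi`.

PROOFS.  All by `artin_induction` / `parabolic_induction` (A02) on the group element, GENERALISING the point `(d, h)`; use
`map_mul`, `Equiv.Perm.mul_apply`, `map_inv`, `Equiv.Perm.inv_def`, `Phi_generator`, `Tm_apply`, `Tm_symm_apply`, `mv_lb_cases`.
* `Phi_generator`: `liftA_generator`.
* `Phi_mul_right`: the generators only multiply the second coordinate on the left.
* `Phi_fst`: step `s^{±1}`: if `toW g * d = d₁ * v` then `s * toW g * d = (s d₁) v` (moved) or `= d₁ (x v)` (fixed, `x ∈ X`);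
  note `toW (generator s)⁻¹ = s⁻¹ = s` (`cs.inv_simple`).
* `Phi_snd_mem`: the label is `1` or `generator x`, `x ∈ X` (`generator_mem`).
* `Phi_parabolic`: for `x ∈ X`: `x * 1 = 1 * x` is not right-`X`-reduced... simplest: `mv_lb_cases X x (DX.one)`: in the moved case
  `(mv ..).2` says `x * 1` is right-`X`-reduced, false since `IsRightDescent (s_x) x` (`ℓ(s_x s_x) = 0 < 1`); in the fixed case
  `x * 1 = 1 * x'` gives `x' = x` by `simple_inj` (C03).
-/

set_option autoImplicit false

namespace Claimed.Agent.R156.PI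

open Claims.C0280 Claims.C0280.HarmonicArtin Claims.C0280.HarmonicArtin.ParabolicIntersections
open CoxeterSystem

variable {S : Type} (M : CoxeterMatrix S)

theorem Phi_generator (X : Set S) (s : S) : Phi M X (generator M s) = Tm M X s :=
  liftA_generator M (Tm M X) (Tm_braid M X) s

theorem g03_gen_mul (X : Set S) (s : S) (g : Artin M) (p : DX M X × Artin M) :
    Phi M X (generator M s * g) p = Tm M X s (Phi M X g p) := by
  rw [map_mul, Equiv.Perm.mul_apply, Phi_generator]

theorem g03_inv_mul (X : Set S) (s : S) (g : Artin M) (p : DX M X × Artin M) :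
    Phi M X ((generator M s)⁻¹ * g) p = (Tm M X s).symm (Phi M X g p) := by
  rw [map_mul, Equiv.Perm.mul_apply, map_inv, Phi_generator, Equiv.Perm.inv_def]

theorem Phi_mul_right (X : Set S) (g : Artin M) (d : DX M X) (h a : Artin M) :
    Phi M X g (d, h * a) = ((Phi M X g (d, h)).1, (Phi M X g (d, h)).2 * a) := by
  refine artin_induction M (p := fun g => Phi M X g (d, h * a)
    = ((Phi M X g (d, h)).1, (Phi M X g (d, h)).2 * a)) ?_ ?_ ?_ g
  · simp
  · intro s g ih
    rw [g03_gen_mul, g03_gen_mul, ih]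
    generalize Phi M X g (d, h) = p
    rcases p with ⟨d1, h1⟩
    simp [Tm_apply, mul_assoc]
  · intro s g ih
    rw [g03_inv_mul, g03_inv_mul, ih]
    generalize Phi M X g (d, h) = p
    rcases p with ⟨d1, h1⟩
    simp [Tm_symm_apply, mul_assoc]

theorem g03_step (X : Set S) (s : S) (d1 : DX M X) (w v : M.Group)
    (hv : v ∈ WP M.toCoxeterSystem X) (e : w = d1.1 * v) :
    ∃ v' ∈ WP M.toCoxeterSystem X, M.toCoxeterSystem.simple s * w = (mv M X s d1).1 * v' := by
  rcases mv_lb_cases M X s d1 with ⟨h1, _⟩ | ⟨x, hx, h1, h2, _⟩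
  · exact ⟨v, hv, by rw [h1, e, mul_assoc]⟩
  · refine ⟨M.toCoxeterSystem.simple x * v,
      (WP M.toCoxeterSystem X).mul_mem (simple_mem_WP _ hx) hv, ?_⟩
    rw [h2, e, ← mul_assoc, h1, mul_assoc]

theorem Phi_fst (X : Set S) (g : Artin M) (d : DX M X) (h : Artin M) :
    ∃ v ∈ WP M.toCoxeterSystem X, toW M g * d.1 = (Phi M X g (d, h)).1.1 * v := by
  refine artin_induction M (p := fun g => ∃ v ∈ WP M.toCoxeterSystem X,
    toW M g * d.1 = (Phi M X g (d, h)).1.1 * v) ?_ ?_ ?_ g
  · exact ⟨1, (WP M.toCoxeterSystem X).one_mem, by simp⟩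
  · rintro s g ⟨v, hv, e⟩
    rw [g03_gen_mul, map_mul, toW_generator, mul_assoc]
    revert e
    generalize Phi M X g (d, h) = p
    rcases p with ⟨d1, h1⟩
    intro e
    rw [Tm_apply]
    exact g03_step M X s d1 _ v hv e
  · rintro s g ⟨v, hv, e⟩
    rw [g03_inv_mul, map_mul, map_inv, toW_generator, M.toCoxeterSystem.inv_simple, mul_assoc]
    revert e
    generalize Phi M X g (d, h) = p
    rcases p with ⟨d1, h1⟩
    intro e
    rw [Tm_symm_apply]
    exact g03_step M X s d1 _ v hv e

theorem g03_lb_mem (X : Set S) (s : S) (d : DX M X) : lb M X s d ∈ artinParabolic M X := by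
  rcases mv_lb_cases M X s d with ⟨_, h1⟩ | ⟨x, hx, _, _, h1⟩
  · rw [h1]; exact (artinParabolic M X).one_mem
  · rw [h1]; exact generator_mem M hx

theorem Phi_snd_mem (X : Set S) (g : Artin M) (d : DX M X) (h : Artin M) :
    (Phi M X g (d, h)).2 * h⁻¹ ∈ artinParabolic M X := by
  refine artin_induction M (p := fun g => (Phi M X g (d, h)).2 * h⁻¹ ∈ artinParabolic M X)
    ?_ ?_ ?_ g
  · simp [(artinParabolic M X).one_mem]
  · intro s g ih
    rw [g03_gen_mul]
    revert ih
    generalize Phi M X g (d, h) = p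
    rcases p with ⟨d1, h1⟩
    intro ih
    rw [Tm_apply]
    show lb M X s d1 * h1 * h⁻¹ ∈ _
    rw [mul_assoc]
    exact (artinParabolic M X).mul_mem (g03_lb_mem M X s d1) ih
  · intro s g ih
    rw [g03_inv_mul]
    revert ih
    generalize Phi M X g (d, h) = p
    rcases p with ⟨d1, h1⟩
    intro ih
    rw [Tm_symm_apply]
    show (lb M X s d1)⁻¹ * h1 * h⁻¹ ∈ _
    rw [mul_assoc]
    exact (artinParabolic M X).mul_mem ((artinParabolic M X).inv_mem (g03_lb_mem M X s d1)) ih

theorem g03_base (X : Set S) {x : S} (hx : x ∈ X) :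
    mv M X x (DX.one M X) = DX.one M X ∧ lb M X x (DX.one M X) = generator M x := by
  rcases mv_lb_cases M X x (DX.one M X) with ⟨h1, _⟩ | ⟨x', hx', h1, h2, h3⟩
  · exfalso
    have h2 := (mv M X x (DX.one M X)).2 x hx
    rw [h1] at h2
    apply h2
    have h3 : (DX.one M X).1 = 1 := rfl
    rw [h3, mul_one]
    unfold CoxeterSystem.IsRightDescent
    rw [M.toCoxeterSystem.simple_mul_simple_self, M.toCoxeterSystem.length_one,
      M.toCoxeterSystem.length_simple]
    exact Nat.one_pos
  · have h4 : (DX.one M X).1 = 1 := rfl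
    rw [h4, mul_one, one_mul] at h1
    have h5 := simple_inj _ h1
    subst h5
    exact ⟨h2, h3⟩

theorem Phi_parabolic (X : Set S) {a : Artin M} (ha : a ∈ artinParabolic M X) (h : Artin M) :
    Phi M X a (DX.one M X, h) = (DX.one M X, a * h) := by
  refine parabolic_induction M (X := X) (p := fun a => Phi M X a (DX.one M X, h)
    = (DX.one M X, a * h)) ?_ ?_ ?_ ha
  · simp
  · intro s hs g ih
    rw [g03_gen_mul, ih, Tm_apply, (g03_base M X hs).1, (g03_base M X hs).2, mul_assoc]
  · intro s hs g ih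
    rw [g03_inv_mul, ih, Tm_symm_apply, (g03_base M X hs).1, (g03_base M X hs).2, mul_assoc]

end Claimed.Agent.R156.PI
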