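import Claimed.Agent.R156.PI.G03

/-!
# PI leaf G04: the retraction `piX`: homomorphism on `p⁻¹(W_X)`, identity on `A_X`.

PROOFS.
* `Phi_fst_eq`: by `Phi_fst`, `toW g * 1 = d' * v`; also `toW g * 1 = e * 1` with `e = toW g` right-`X`-reduced; `decomp_unique`.
* `Phi_base`: `Phi g (one, h) = Phi g (one, 1 * h)` and `Phi_mul_right`.
* `Phi_of_toW_mem`: `Phi_base` + first coordinate: `toW g * 1 = d' * v`, and `toW g * 1 = 1 * toW g` with `toW g ∈ W_X`; `decomp_unique` gives `d' = 1`.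
* `piX_mem`: `Phi_snd_mem` with `h = 1`.   * `piX_of_mem`: `Phi_parabolic`.
* `piX_mul_right`: `Phi (g a) (one,1) = Phi g (Phi a (one,1)) = Phi g (one, a)`, then `Phi_base`.
* `piX_mul`: `Phi (g g') (one,1) = Phi g (one, piX g') = (one, piX g * piX g')` by `Phi_of_toW_mem` twice.
* `piX_inv`: from `piX_mul` and `piX 1 = 1`.
* `inK_iff`: `Phi_of_toW_mem` / `Phi_fst`.   * `inK_mul_piX_inv`: `Phi (c₀ a⁻¹) (one,1) = Phi c₀ (one, a⁻¹) = (one, piX c₀ * a⁻¹)`, `a = piX c₀ ∈ A_X`.
* `comm_of_inK`: put `y = c⁻¹ * a * c ∈ A_X`.  `c, a, y` all lie in `p⁻¹(W_X)`, `piX c = 1`, so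
  `y = piX y = (piX c)⁻¹ * piX a * piX c = a`, i.e. `a * c = c * a`.
-/

set_option autoImplicit false

namespace Claimed.Agent.R156.PI

open Claims.C0280 Claims.C0280.HarmonicArtin Claims.C0280.HarmonicArtin.ParabolicIntersections
open CoxeterSystem

variable {S : Type} (M : CoxeterMatrix S)

theorem Phi_base (X : Set S) (g h : Artin M) :
    Phi M X g (DX.one M X, h) = ((Phi M X g (DX.one M X, 1)).1, piX M X g * h) := by
  have := Phi_mul_right M X g (DX.one M X) 1 h
  rw [one_mul] at this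
  exact this

theorem Phi_fst_eq (X : Set S) {g : Artin M} (hg : RRed M.toCoxeterSystem X (toW M g)) :
    (Phi M X g (DX.one M X, 1)).1.1 = toW M g := by
  obtain ⟨v, hv, e⟩ := Phi_fst M X g (DX.one M X) 1
  exact (decomp_unique M.toCoxeterSystem (v := 1) hg (Phi M X g (DX.one M X, 1)).1.2
    (Subgroup.one_mem _) hv e).1.symm

theorem Phi_of_toW_mem (X : Set S) {g : Artin M} (hg : toW M g ∈ WP M.toCoxeterSystem X)
    (h : Artin M) : Phi M X g (DX.one M X, h) = (DX.one M X, piX M X g * h) := by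
  rw [Phi_base]
  obtain ⟨v, hv, e⟩ := Phi_fst M X g (DX.one M X) 1
  have e' : (1 : M.Group) * toW M g = (Phi M X g (DX.one M X, 1)).1.1 * v := by
    rw [one_mul, ← e]
    exact (mul_one _).symm
  have h1 := (decomp_unique M.toCoxeterSystem (rRed_one _ X) (Phi M X g (DX.one M X, 1)).1.2
    hg hv e').1
  have h2 : (Phi M X g (DX.one M X, 1)).1 = DX.one M X := Subtype.ext h1.symm
  rw [h2]

theorem piX_mem (X : Set S) (g : Artin M) : piX M X g ∈ artinParabolic M X := by
  have := Phi_snd_mem M X g (DX.one M X) 1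
  rw [inv_one, mul_one] at this
  exact this

theorem piX_of_mem (X : Set S) {a : Artin M} (ha : a ∈ artinParabolic M X) : piX M X a = a := by
  unfold piX
  rw [Phi_parabolic M X ha 1, mul_one]

theorem piX_mul_right (X : Set S) (g : Artin M) {a : Artin M} (ha : a ∈ artinParabolic M X) :
    piX M X (g * a) = piX M X g * a := by
  have h1 : Phi M X (g * a) (DX.one M X, 1) = Phi M X g (DX.one M X, a) := by
    rw [map_mul, Equiv.Perm.mul_apply, Phi_parabolic M X ha 1, mul_one]
  have h2 : piX M X (g * a) = (Phi M X (g * a) (DX.one M X, 1)).2 := rfl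
  rw [h2, h1, Phi_base]

theorem piX_mul (X : Set S) {g g' : Artin M} (hg : toW M g ∈ WP M.toCoxeterSystem X)
    (hg' : toW M g' ∈ WP M.toCoxeterSystem X) : piX M X (g * g') = piX M X g * piX M X g' := by
  have h2 : piX M X (g * g') = (Phi M X (g * g') (DX.one M X, 1)).2 := rfl
  rw [h2, map_mul, Equiv.Perm.mul_apply, Phi_of_toW_mem M X hg' 1, Phi_of_toW_mem M X hg, mul_one]

theorem piX_inv (X : Set S) {g : Artin M} (hg : toW M g ∈ WP M.toCoxeterSystem X) :
    piX M X g⁻¹ = (piX M X g)⁻¹ := by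
  have hg' : toW M g⁻¹ ∈ WP M.toCoxeterSystem X := by
    rw [map_inv]; exact Subgroup.inv_mem _ hg
  have h1 := piX_mul M X hg hg'
  rw [mul_inv_cancel, piX_of_mem M X (Subgroup.one_mem _)] at h1
  exact eq_inv_of_mul_eq_one_right h1.symm

theorem inK_iff (X : Set S) (c : Artin M) :
    InK M X c ↔ toW M c ∈ WP M.toCoxeterSystem X ∧ piX M X c = 1 := by
  constructor
  · intro h
    have h' : Phi M X c (DX.one M X, 1) = (DX.one M X, 1) := h
    refine ⟨?_, ?_⟩
    · obtain ⟨v, hv, e⟩ := Phi_fst M X c (DX.one M X) 1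
      rw [h'] at e
      have e2 : toW M c = v := by
        have e3 : toW M c * 1 = 1 * v := e
        rwa [mul_one, one_mul] at e3
      rw [e2]; exact hv
    · unfold piX
      rw [h']
  · rintro ⟨h1, h2⟩
    have := Phi_of_toW_mem M X h1 1
    rw [h2, mul_one] at this
    exact this

theorem inK_mul_piX_inv (X : Set S) {c : Artin M} (hc : toW M c ∈ WP M.toCoxeterSystem X) :
    InK M X (c * (piX M X c)⁻¹) := by
  rw [inK_iff]
  have ha : (piX M X c)⁻¹ ∈ artinParabolic M X := Subgroup.inv_mem _ (piX_mem M X c)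
  refine ⟨?_, ?_⟩
  · rw [map_mul]
    exact Subgroup.mul_mem _ hc (toW_mem M ha)
  · rw [piX_mul_right M X c ha, mul_inv_cancel]

/-- for `c ∈ K_X`:  `A_X ∩ c A_X c⁻¹` is the centraliser of `c` in `A_X` -/
theorem comm_of_inK (X : Set S) {c a : Artin M} (hc : InK M X c) (ha : a ∈ artinParabolic M X)
    (h : a ∈ conjugate c (artinParabolic M X)) : a * c = c * a := by
  obtain ⟨hcW, hc1⟩ := (inK_iff M X c).mp hc
  rw [mem_conj] at h
  have hciW : toW M c⁻¹ ∈ WP M.toCoxeterSystem X := by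
    rw [map_inv]; exact Subgroup.inv_mem _ hcW
  have haW : toW M a ∈ WP M.toCoxeterSystem X := toW_mem M ha
  have hcaW : toW M (c⁻¹ * a) ∈ WP M.toCoxeterSystem X := by
    rw [map_mul]; exact Subgroup.mul_mem _ hciW haW
  have h1 : piX M X (c⁻¹ * a * c) = a := by
    rw [piX_mul M X hcaW hcW, piX_mul M X hciW haW, piX_inv M X hcW, hc1, piX_of_mem M X ha]
    simp
  rw [piX_of_mem M X h] at h1
  calc a * c = c * (c⁻¹ * a * c) := by group
    _ = c * a := by rw [h1]

end Claimed.Agent.R156.PI
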