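import Claimed.Agent.R156.PI.G04

/-!
# PI leaf G05: the orbit of `A_Y` through a double-coset-reduced point; the MAIN LEMMA `ml`:
`A_X ∩ f⁻¹ A_Y f  ⊆  k⁻¹ A_{X'} k`, `k = π_X(f) ∈ A_X`, `X' = X ∩ e⁻¹ Y e`, `e = p(f)` right-`X`-reduced and left-`Y`-reduced.

PROOFS.  `cs := M.toCoxeterSystem`.
* `Phi_orbit`: `parabolic_induction` (A02) on `y ∈ A_Y` with the predicate `fun y => ∀ d k, (∃ v ∈ W_Y, d.1 = v * e) → ...`.
  `y = 1`: trivial.  Step `generator s * y` (`s ∈ Y`): `Phi (s y) (d,k) = Tm s (d₁,k₁)`, `(d₁,k₁) = Phi y (d,k)`, `d₁ = v₁ e`, `k₁ k⁻¹ ∈ A_{X'}`.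
  `mv_lb_cases X s d₁`: moved: new first coordinate `s v₁ e`, label `1`.  Fixed: `s d₁ = d₁ x`, `x ∈ X`; then
  `e x e⁻¹ = v₁⁻¹ s v₁ ∈ W_Y`, `¬ IsRightDescent e x` (`hR`), so `exists_simple_conj` (C03) gives `y' ∈ Y` with `e x = y' e`: `x ∈ XY X Y e`,
  and `(generator x * k₁) * k⁻¹ = generator x * (k₁ k⁻¹)`.  Step `(generator s)⁻¹ * y`: same with `Tm_symm_apply` (label inverted).
* `ml`: let `h ∈ A_X`, `y := f h f⁻¹ ∈ A_Y` (`mem_conj`, `inv_inv`), so `y * f = f * h`.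
  `Phi (f h) (one,1) = Phi f (one, h) = (d₀, piX f * h)` (`Phi_parabolic`, `Phi_base`), `d₀ = (Phi f (one,1)).1`, `d₀.1 = e` (`Phi_fst_eq`).
  `Phi (y f) (one,1) = Phi y (d₀, piX f)`; `Phi_orbit` (with `v = 1`) gives `(piX f * h) * (piX f)⁻¹ ∈ A_{X'}`, which is `mem_conj` for `(piX f)⁻¹`.
-/

set_option autoImplicit false

namespace Claimed.Agent.R156.PI

open Claims.C0280 Claims.C0280.HarmonicArtin Claims.C0280.HarmonicArtin.ParabolicIntersections
open CoxeterSystem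

variable {S : Type} (M : CoxeterMatrix S)

/-- `X' = X ∩ e⁻¹ Y e` -/
def XY (X Y : Set S) (e : M.Group) : Set S :=
  {x | x ∈ X ∧ ∃ y ∈ Y, e * M.toCoxeterSystem.simple x = M.toCoxeterSystem.simple y * e}

theorem XY_subset (X Y : Set S) (e : M.Group) : XY M X Y e ⊆ X := fun _ h => h.1

theorem g05_step (X Y : Set S) {e : M.Group} (hR : RRed M.toCoxeterSystem X e)
    (hL : LRed M.toCoxeterSystem Y e) {s : S} (hs : s ∈ Y) (d1 : DX M X)
    (hd : ∃ v ∈ WP M.toCoxeterSystem Y, d1.1 = v * e) :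
    (∃ v ∈ WP M.toCoxeterSystem Y, (mv M X s d1).1 = v * e) ∧
      lb M X s d1 ∈ artinParabolic M (XY M X Y e) := by
  obtain ⟨v, hv, hve⟩ := hd
  rcases mv_lb_cases M X s d1 with ⟨h1, h2⟩ | ⟨x, hx, h1, h2, h3⟩
  · refine ⟨⟨M.toCoxeterSystem.simple s * v,
      (WP M.toCoxeterSystem Y).mul_mem (simple_mem_WP _ hs) hv, ?_⟩, ?_⟩
    · rw [h1, hve, mul_assoc]
    · rw [h2]; exact (artinParabolic M _).one_mem
  · refine ⟨⟨v, hv, by rw [h2, hve]⟩, ?_⟩
    rw [h3]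
    apply generator_mem
    refine ⟨hx, ?_⟩
    apply exists_simple_conj M.toCoxeterSystem hL (hR x hx)
    have h4 : e * M.toCoxeterSystem.simple x * e⁻¹ = v⁻¹ * M.toCoxeterSystem.simple s * v := by
      rw [hve] at h1
      have h5 : e * M.toCoxeterSystem.simple x = v⁻¹ * (M.toCoxeterSystem.simple s * (v * e)) := by
        rw [h1]; group
      rw [h5]; group
    rw [h4]
    exact (WP M.toCoxeterSystem Y).mul_mem
      ((WP M.toCoxeterSystem Y).mul_mem ((WP M.toCoxeterSystem Y).inv_mem hv)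
        (simple_mem_WP _ hs)) hv

theorem Phi_orbit (X Y : Set S) {e : M.Group} (hR : RRed M.toCoxeterSystem X e)
    (hL : LRed M.toCoxeterSystem Y e) {y : Artin M} (hy : y ∈ artinParabolic M Y)
    (d : DX M X) (k : Artin M) (hd : ∃ v ∈ WP M.toCoxeterSystem Y, d.1 = v * e) :
    (∃ v ∈ WP M.toCoxeterSystem Y, (Phi M X y (d, k)).1.1 = v * e) ∧
      (Phi M X y (d, k)).2 * k⁻¹ ∈ artinParabolic M (XY M X Y e) := by
  refine parabolic_induction M (X := Y) (p := fun y =>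
    (∃ v ∈ WP M.toCoxeterSystem Y, (Phi M X y (d, k)).1.1 = v * e) ∧
      (Phi M X y (d, k)).2 * k⁻¹ ∈ artinParabolic M (XY M X Y e)) ?_ ?_ ?_ hy
  · refine ⟨by simpa using hd, ?_⟩
    simp [(artinParabolic M (XY M X Y e)).one_mem]
  · intro s hs g ih
    rw [map_mul, Equiv.Perm.mul_apply, Phi_generator]
    revert ih
    generalize Phi M X g (d, k) = p
    rcases p with ⟨d1, k1⟩
    rintro ⟨ih1, ih2⟩
    rw [Tm_apply]
    obtain ⟨a1, a2⟩ := g05_step M X Y hR hL hs d1 ih1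
    refine ⟨a1, ?_⟩
    show lb M X s d1 * k1 * k⁻¹ ∈ _
    rw [mul_assoc]
    exact (artinParabolic M _).mul_mem a2 ih2
  · intro s hs g ih
    rw [map_mul, Equiv.Perm.mul_apply, map_inv, Phi_generator, Equiv.Perm.inv_def]
    revert ih
    generalize Phi M X g (d, k) = p
    rcases p with ⟨d1, k1⟩
    rintro ⟨ih1, ih2⟩
    rw [Tm_symm_apply]
    obtain ⟨a1, a2⟩ := g05_step M X Y hR hL hs d1 ih1
    refine ⟨a1, ?_⟩
    show (lb M X s d1)⁻¹ * k1 * k⁻¹ ∈ _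
    rw [mul_assoc]
    exact (artinParabolic M _).mul_mem ((artinParabolic M _).inv_mem a2) ih2

theorem ml (X Y : Set S) {f : Artin M} (hR : RRed M.toCoxeterSystem X (toW M f))
    (hL : LRed M.toCoxeterSystem Y (toW M f)) :
    artinParabolic M X ⊓ conjugate f⁻¹ (artinParabolic M Y)
      ≤ conjugate (piX M X f)⁻¹ (artinParabolic M (XY M X Y (toW M f))) := by
  rintro h ⟨hX, hY⟩
  have hX' : h ∈ artinParabolic M X := hX
  have hY' : f * h * f⁻¹ ∈ artinParabolic M Y := by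
    have := (mem_conj f⁻¹ h (artinParabolic M Y)).mp hY
    rwa [inv_inv] at this
  rw [mem_conj, inv_inv]
  set d0 := (Phi M X f (DX.one M X, 1)).1 with hd0
  have hf : Phi M X f (DX.one M X, 1) = (d0, piX M X f) := rfl
  have h1 : Phi M X (f * h) (DX.one M X, 1) = (d0, piX M X f * h) := by
    rw [map_mul, Equiv.Perm.mul_apply, Phi_parabolic M X hX', mul_one, Phi_base]
  have h2 : Phi M X (f * h * f⁻¹ * f) (DX.one M X, 1)
      = Phi M X (f * h * f⁻¹) (d0, piX M X f) := by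
    rw [map_mul, Equiv.Perm.mul_apply, hf]
  have h3 : f * h * f⁻¹ * f = f * h := by group
  rw [h3, h1] at h2
  have h4 := (Phi_orbit M X Y hR hL hY' d0 (piX M X f)
    ⟨1, (WP M.toCoxeterSystem Y).one_mem, by rw [one_mul]; exact Phi_fst_eq M X hR⟩).2
  rw [← h2] at h4
  exact h4

end Claimed.Agent.R156.PI
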