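import Claimed.Agent.R156.PI.G05

/-!
# PI leaf P01: `tau e` conjugates `A_X` onto `A_Z` when `e X e⁻¹ = Z`; a "pure" conjugate inside `A_X` is an `A_X`-conjugate.

PROOFS.
* `tau_comm`: `tau (e * x) = tau e * generator x` (`tau_mul_simple`), `tau (z * e) = generator z * tau e` (`tau_simple_mul`), and `e * x = z * e`.
* `conj_tau`: (≥) `artinParabolic M Z = closure ..`, `Subgroup.closure_le`: for `z ∈ Z` pick `x` by `h2`: `(tau e)⁻¹ * generator z * tau e = generator x`
  (`tau_comm`), use `mem_conj`.  (≤) it suffices `A_X ≤ conjugate (tau e)⁻¹ A_Z` (then apply `conj_mono (tau e)`, `conj_conj`, `mul_inv_cancel`, `conj_one`);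
  again `Subgroup.closure_le` with `h1`.
* `bp_pure`: put `r = piX M X k ∈ A_X`.  For `c ∈ A_Z ⊆ A_X`: `k c k⁻¹ ∈ A_X` by `h` (`mem_conj`), so by `piX_of_mem`, `piX_mul`, `piX_inv`
  (all of `k, c, k⁻¹` lie over `W_X`: `hk`, `toW_mem`): `k c k⁻¹ = piX (k c k⁻¹) = r c r⁻¹`.
  `ext x`: `x ∈ conjugate k A_Z ↔ c := k⁻¹ x k ∈ A_Z`, then `x = k c k⁻¹ = r c r⁻¹`, so `r⁻¹ x r = c`; conversely `c := r⁻¹ x r ∈ A_Z`, `x = r c r⁻¹ = k c k⁻¹`.
-/

set_option autoImplicit false

namespace Claimed.Agent.R156.PI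

open Claims.C0280 Claims.C0280.HarmonicArtin Claims.C0280.HarmonicArtin.ParabolicIntersections
open CoxeterSystem

variable {S : Type} (M : CoxeterMatrix S)

theorem tau_comm {e : M.Group} {x z : S} (hx : ¬ M.toCoxeterSystem.IsRightDescent e x)
    (hz : ¬ M.toCoxeterSystem.IsLeftDescent e z)
    (h : e * M.toCoxeterSystem.simple x = M.toCoxeterSystem.simple z * e) :
    tau M e * generator M x = generator M z * tau M e := by
  rw [← tau_mul_simple M hx, ← tau_simple_mul M hz, h]

theorem conj_tau {X Z : Set S} {e : M.Group} (hR : RRed M.toCoxeterSystem X e)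
    (hL : LRed M.toCoxeterSystem Z e)
    (h1 : ∀ x ∈ X, ∃ z ∈ Z, e * M.toCoxeterSystem.simple x = M.toCoxeterSystem.simple z * e)
    (h2 : ∀ z ∈ Z, ∃ x ∈ X, e * M.toCoxeterSystem.simple x = M.toCoxeterSystem.simple z * e) :
    conjugate (tau M e) (artinParabolic M X) = artinParabolic M Z := by
  apply le_antisymm
  · have key : artinParabolic M X ≤ conjugate (tau M e)⁻¹ (artinParabolic M Z) := by
      unfold artinParabolic
      rw [Subgroup.closure_le]
      rintro _ ⟨x, hx, rfl⟩
      obtain ⟨z, hz, hxz⟩ := h1 x hx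
      have hc := tau_comm M (hR x hx) (hL z hz) hxz
      show generator M x ∈ conjugate (tau M e)⁻¹ (Subgroup.closure (generator M '' Z))
      rw [mem_conj, inv_inv, hc, mul_assoc, mul_inv_cancel, mul_one]
      exact generator_mem M hz
    have := conj_mono (tau M e) key
    rwa [conj_conj, mul_inv_cancel, conj_one] at this
  · unfold artinParabolic
    rw [Subgroup.closure_le]
    rintro _ ⟨z, hz, rfl⟩
    obtain ⟨x, hx, hxz⟩ := h2 z hz
    have hc := tau_comm M (hR x hx) (hL z hz) hxz
    show generator M z ∈ conjugate (tau M e) (Subgroup.closure (generator M '' X))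
    rw [mem_conj, mul_assoc, ← hc, ← mul_assoc, inv_mul_cancel, one_mul]
    exact generator_mem M hx

theorem bp_pure {X Z : Set S} (hZ : Z ⊆ X) {k : Artin M}
    (hk : toW M k ∈ WP M.toCoxeterSystem X)
    (h : conjugate k (artinParabolic M Z) ≤ artinParabolic M X) :
    conjugate k (artinParabolic M Z) = conjugate (piX M X k) (artinParabolic M Z) := by
  have hkinv : toW M k⁻¹ ∈ WP M.toCoxeterSystem X := by
    rw [map_inv]; exact (WP M.toCoxeterSystem X).inv_mem hk
  have key : ∀ c ∈ artinParabolic M Z, k * c * k⁻¹ = piX M X k * c * (piX M X k)⁻¹ := by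
    intro c hc
    have hcX : c ∈ artinParabolic M X := artinParabolic_mono M hZ hc
    have h1 : k * c * k⁻¹ ∈ artinParabolic M X := by
      apply h
      rw [mem_conj]
      have : k⁻¹ * (k * c * k⁻¹) * k = c := by group
      rw [this]; exact hc
    have hkc : toW M (k * c) ∈ WP M.toCoxeterSystem X := by
      rw [map_mul]; exact (WP M.toCoxeterSystem X).mul_mem hk (toW_mem M hcX)
    rw [← piX_of_mem M X h1, piX_mul M X hkc hkinv, piX_mul M X hk (toW_mem M hcX),
      piX_inv M X hk, piX_of_mem M X hcX]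
  ext x
  rw [mem_conj, mem_conj]
  constructor
  · intro hx
    have h1 := key _ hx
    have h2 : k * (k⁻¹ * x * k) * k⁻¹ = x := by group
    rw [h2] at h1
    have h3 : (piX M X k)⁻¹ * x * piX M X k = k⁻¹ * x * k := by
      conv_lhs => rw [h1]
      group
    rw [h3]; exact hx
  · intro hx
    have h1 := key _ hx
    have h2 : piX M X k * ((piX M X k)⁻¹ * x * piX M X k) * (piX M X k)⁻¹ = x := by group
    rw [h2] at h1
    have h3 : k⁻¹ * x * k = (piX M X k)⁻¹ * x * piX M X k := by
      conv_lhs => rw [← h1]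
      group
    rw [h3]; exact hx

end Claimed.Agent.R156.PI
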