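import Claimed.Agent.R156.PI.P01

/-!
# PI leaf P02: BLUFSTEIN-PARIS: a parabolic subgroup contained in `A_X` is a parabolic subgroup of `A_X` (of the same rank).

PROOFS.  `cs := M.toCoxeterSystem`.
* `bp_reduced`: `d := toW g`.  For `y ∈ Y`: `g * generator y * g⁻¹ ∈ A_X` (`h`, `mem_conj`, `generator_mem`), so `d y d⁻¹ ∈ W_X` (`toW_mem`, `map_mul`,
  `toW_generator`); `exists_simple_conj` (C03, with `e := d`, its `Y := X`, `x := y`) gives `x ∈ X` with `d y = x d`.
  `Z := {x ∈ X | ∃ y ∈ Y, d * s_y = s_x * d}`.  `Z.ncard = Y.ncard`: choose `φ : Y → Z`; it is injective and surjective by `simple_inj` and cancellation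
  (`Set.ncard_congr` or `Set.BijOn`...; `S` is finite).  `conj_tau` (X := Y, Z := Z; `LRed Z d` from `hL` and `Z ⊆ X`): `conjugate (tau d) A_Y = A_Z`.
  `k₀ := g * (tau d)⁻¹`, `toW k₀ = 1 ∈ W_X` (`toW_tau`); `conjugate g A_Y = conjugate k₀ (conjugate (tau d) A_Y) = conjugate k₀ A_Z` (`conj_conj`).
  `bp_pure` gives `= conjugate (piX k₀) A_Z`, `piX k₀ ∈ A_X` (`piX_mem`).
* `bp`: `exists_double_coset_rep cs X Y (toW g)`: `toW g = u d v`; lifts `a ∈ A_X`, `b ∈ A_Y` (`exists_lift`); `g' := a⁻¹ g b⁻¹`, `toW g' = d`.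
  `conjugate g' A_Y = conjugate a⁻¹ (conjugate g A_Y)` (`conj_conj`, `conj_mul_of_mem`) `≤ A_X` (`conj_le_of_mem`).  Apply `bp_reduced` to `g'`: `(Z, k)`;
  answer `(Z, a * k)`.
-/

set_option autoImplicit false

namespace Claimed.Agent.R156.PI

open Claims.C0280 Claims.C0280.HarmonicArtin Claims.C0280.HarmonicArtin.ParabolicIntersections
open CoxeterSystem

variable {S : Type} (M : CoxeterMatrix S)

theorem bp_reduced [Finite S] {X Y : Set S} {g : Artin M}
    (hL : LRed M.toCoxeterSystem X (toW M g)) (hR : RRed M.toCoxeterSystem Y (toW M g))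
    (h : conjugate g (artinParabolic M Y) ≤ artinParabolic M X) :
    ∃ Z ⊆ X, ∃ k ∈ artinParabolic M X, Z.ncard = Y.ncard ∧
      conjugate g (artinParabolic M Y) = conjugate k (artinParabolic M Z) := by
  set cs := M.toCoxeterSystem with hcs
  set d := toW M g with hd
  have key : ∀ y ∈ Y, ∃ x ∈ X, d * cs.simple y = cs.simple x * d := by
    intro y hy
    have h1 : g * generator M y * g⁻¹ ∈ conjugate g (artinParabolic M Y) := by
      rw [mem_conj]
      have e : g⁻¹ * (g * generator M y * g⁻¹) * g = generator M y := by group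
      rw [e]; exact generator_mem M hy
    have h2 := toW_mem M (h h1)
    rw [map_mul, map_mul, map_inv, toW_generator] at h2
    exact exists_simple_conj cs hL (hR y hy) h2
  set Z : Set S := {x | x ∈ X ∧ ∃ y ∈ Y, d * cs.simple y = cs.simple x * d} with hZ
  have hZX : Z ⊆ X := fun x hx => hx.1
  have hct : conjugate (tau M d) (artinParabolic M Y) = artinParabolic M Z := by
    apply conj_tau M hR (fun z hz => hL z (hZX hz))
    · intro y hy
      obtain ⟨x, hx, e⟩ := key y hy
      exact ⟨x, ⟨hx, y, hy, e⟩, e⟩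
    · intro z hz
      obtain ⟨_, y, hy, e⟩ := hz
      exact ⟨y, hy, e⟩
  have hcard : Z.ncard = Y.ncard := by
    choose! φ hφX hφ using key
    symm
    apply Set.ncard_congr (fun y _ => φ y)
    · intro y hy; exact ⟨hφX y hy, y, hy, hφ y hy⟩
    · intro y y' hy hy' e
      have e1 := hφ y hy
      have e2 := hφ y' hy'
      rw [e] at e1
      exact simple_inj cs (mul_left_cancel (e1.trans e2.symm))
    · intro x hx
      obtain ⟨hxX, y, hy, e⟩ := hx
      refine ⟨y, hy, ?_⟩
      have e1 := hφ y hy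
      exact simple_inj cs (mul_right_cancel (e1.symm.trans e))
  set k₀ := g * (tau M d)⁻¹ with hk₀
  have hk₀W : toW M k₀ ∈ WP cs X := by
    have e : toW M k₀ = 1 := by
      rw [hk₀, map_mul, map_inv, toW_tau, hd, mul_inv_cancel]
    rw [e]
    exact one_mem _
  have hconj : conjugate g (artinParabolic M Y) = conjugate k₀ (artinParabolic M Z) := by
    rw [← hct, conj_conj, hk₀, inv_mul_cancel_right]
  refine ⟨Z, hZX, piX M X k₀, piX_mem M X k₀, hcard, ?_⟩
  rw [hconj]
  exact bp_pure M hZX hk₀W (hconj ▸ h)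

theorem bp [Finite S] {X Y : Set S} {g : Artin M}
    (h : conjugate g (artinParabolic M Y) ≤ artinParabolic M X) :
    ∃ Z ⊆ X, ∃ k ∈ artinParabolic M X, Z.ncard = Y.ncard ∧
      conjugate g (artinParabolic M Y) = conjugate k (artinParabolic M Z) := by
  obtain ⟨u, hu, v, hv, d, hw, hdL, hdR⟩ :=
    exists_double_coset_rep M.toCoxeterSystem X Y (toW M g)
  obtain ⟨a, ha, hau⟩ := exists_lift M hu
  obtain ⟨b, hb, hbv⟩ := exists_lift M hv
  set g' := a⁻¹ * g * b⁻¹ with hg'
  have hW : toW M g' = d := by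
    rw [hg', map_mul, map_mul, map_inv, map_inv, hau, hbv, hw]; group
  have hc : conjugate g' (artinParabolic M Y)
      = conjugate a⁻¹ (conjugate g (artinParabolic M Y)) := by
    rw [conj_conj, hg']
    exact conj_mul_of_mem (a⁻¹ * g) (inv_mem hb)
  have hle : conjugate g' (artinParabolic M Y) ≤ artinParabolic M X := by
    rw [hc]; exact conj_le_of_mem (inv_mem ha) h
  obtain ⟨Z, hZ, k, hk, hcard, e⟩ := bp_reduced M (hW ▸ hdL) (hW ▸ hdR) hle
  refine ⟨Z, hZ, a * k, mul_mem ha hk, hcard, ?_⟩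
  rw [← conj_conj, ← e, hc, conj_conj, mul_inv_cancel, conj_one]

end Claimed.Agent.R156.PI
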