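import Claimed.Agent.R156.PI.P03

/-!
# PI leaf P04: THE CRUX (STAR) in Lean form; normalisation; the three cases of the induction step.

`Crux M` = crux #114 of the board: for `c ∈ K_X` (stabiliser of the base point of the Godelle-Paris action, i.e. `p(c) ∈ W_X` and `π_X(c) = 1`)
the centraliser of `c` in `A_X` is all of `A_X` or lies in a conjugate (by ANY element) of `A_Z`, `Z ⊊ X`.

PROOFS.  `cs := M.toCoxeterSystem`; `A_X := artinParabolic M X`.
* `normalise`: `conjugate g A_X ⊓ conjugate h A_Y = conjugate g (A_X ⊓ conjugate (g⁻¹ h) A_Y)` (`conj_inf`, `conj_conj`).  Let `f₀ = h⁻¹ g`.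
  `exists_double_coset_rep cs Y X (toW f₀)`: `toW f₀ = u e v`, `u ∈ W_Y`, `v ∈ W_X`, `LRed Y e`, `RRed X e`.  Lifts `b ∈ A_Y` of `u`, `a ∈ A_X` of `v`.
  `f := b⁻¹ f₀ a⁻¹`, `toW f = e`.  `g⁻¹ h = f₀⁻¹ = a⁻¹ f⁻¹ b⁻¹`, so `conjugate (g⁻¹h) A_Y = conjugate (a⁻¹ f⁻¹) A_Y` (`conj_mul_of_mem`)
  and `A_X ⊓ conjugate (a⁻¹ f⁻¹) A_Y = conjugate a⁻¹ (A_X ⊓ conjugate f⁻¹ A_Y)` (`conj_inf`, `conj_of_mem`, `conj_conj`).  Answer: `(g a⁻¹, f)`.
* `case_shrink`: by `ml`, `A_X ⊓ conjugate f⁻¹ A_Y ≤ conjugate k⁻¹ A_{X'}`, `k = piX f ∈ A_X`, and `conjugate k⁻¹ A_{X'} ≤ A_X`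
  (`conj_le_of_mem`, `artinParabolic_mono`), so `A_X ⊓ conjugate f⁻¹ A_Y = conjugate k⁻¹ A_{X'} ⊓ conjugate f⁻¹ A_Y` (`le_antisymm`), parabolic by `IH`.
* `case_equal`: `conj_tau` gives `conjugate (tau e) A_X = A_Y`, `e = toW f`.  So `conjugate f⁻¹ A_Y = conjugate c₀ A_X`, `c₀ = f⁻¹ * tau e`, `toW c₀ = 1`.
  `c := c₀ * (piX c₀)⁻¹`: `InK` (`inK_mul_piX_inv`), `conjugate c A_X = conjugate c₀ A_X` (`conj_mul_of_mem`, `piX_mem`).  `hC X c`:
  (1) everything commutes: `A_X ≤ conjugate c A_X` (`mem_conj`: `c⁻¹ a c = a`), the intersection is `A_X` (`isParabolic_std`).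
  (2) `Z ⊂ X`, `b`: by `comm_of_inK`, `A_X ⊓ conjugate c A_X ≤ conjugate b A_Z`, so it equals `(A_X ⊓ conjugate b A_Z) ⊓ conjugate c A_X`.
      `Z.ncard < X.ncard` (`Set.ncard_lt_ncard`), `X.ncard ≤ Y.ncard` (`rank_le` applied to `conjugate (tau e) A_X ≤ conjugate 1 A_Y`).
      `IH X Z` (use `conj_one`): `A_X ⊓ conjugate b A_Z = conjugate b' A_V`; it is `≤ conjugate b A_Z`, so `V.ncard ≤ Z.ncard` (`rank_le`); `IH V X` finishes.
-/

set_option autoImplicit false

namespace Claimed.Agent.R156.PI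

open Claims.C0280 Claims.C0280.HarmonicArtin Claims.C0280.HarmonicArtin.ParabolicIntersections
open CoxeterSystem

variable {S : Type} (M : CoxeterMatrix S)

/-- THE CRUX (board crux #114, STAR) -/
def Crux : Prop :=
  ∀ (X : Set S) (c : Artin M), InK M X c →
    (∀ a ∈ artinParabolic M X, a * c = c * a) ∨
    ∃ (Z : Set S) (b : Artin M), Z ⊂ X ∧
      ∀ a ∈ artinParabolic M X, a * c = c * a → a ∈ conjugate b (artinParabolic M Z)

theorem normalise (X Y : Set S) (g h : Artin M) :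
    ∃ a f : Artin M, RRed M.toCoxeterSystem X (toW M f) ∧ LRed M.toCoxeterSystem Y (toW M f) ∧
      conjugate g (artinParabolic M X) ⊓ conjugate h (artinParabolic M Y)
        = conjugate a (artinParabolic M X ⊓ conjugate f⁻¹ (artinParabolic M Y)) := by
  obtain ⟨u, hu, v, hv, e, he, hL, hR⟩ :=
    exists_double_coset_rep M.toCoxeterSystem Y X (toW M (h⁻¹ * g))
  obtain ⟨b, hb, hbu⟩ := exists_lift M hu
  obtain ⟨a, ha, hav⟩ := exists_lift M hv
  have hf : toW M (b⁻¹ * (h⁻¹ * g) * a⁻¹) = e := by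
    rw [map_mul, map_mul, map_inv, map_inv, he, hbu, hav]
    group
  refine ⟨g * a⁻¹, b⁻¹ * (h⁻¹ * g) * a⁻¹, ?_, ?_, ?_⟩
  · rw [hf]; exact hR
  · rw [hf]; exact hL
  · rw [conj_inf, conj_conj, conj_mul_of_mem g (inv_mem ha)]
    have e1 : g * a⁻¹ * (b⁻¹ * (h⁻¹ * g) * a⁻¹)⁻¹ = h * b := by group
    rw [e1, conj_mul_of_mem h hb]

theorem case_shrink [Finite S] (X Y : Set S)
    (IH : ∀ X' Y' : Set S, X'.ncard + Y'.ncard < X.ncard + Y.ncard → ∀ g h : Artin M,
      IsParabolic M (conjugate g (artinParabolic M X') ⊓ conjugate h (artinParabolic M Y')))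
    {f : Artin M} (hR : RRed M.toCoxeterSystem X (toW M f))
    (hL : LRed M.toCoxeterSystem Y (toW M f)) (hne : XY M X Y (toW M f) ≠ X) :
    IsParabolic M (artinParabolic M X ⊓ conjugate f⁻¹ (artinParabolic M Y)) := by
  have hsub : XY M X Y (toW M f) ⊆ X := XY_subset M X Y (toW M f)
  have hss : XY M X Y (toW M f) ⊂ X := lt_of_le_of_ne hsub hne
  have hcard : (XY M X Y (toW M f)).ncard < X.ncard := Set.ncard_lt_ncard hss (Set.toFinite X)
  have hml := ml M X Y hR hL
  have hle : conjugate (piX M X f)⁻¹ (artinParabolic M (XY M X Y (toW M f)))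
      ≤ artinParabolic M X :=
    conj_le_of_mem (inv_mem (piX_mem M X f)) (artinParabolic_mono M hsub)
  have heq : artinParabolic M X ⊓ conjugate f⁻¹ (artinParabolic M Y)
      = conjugate (piX M X f)⁻¹ (artinParabolic M (XY M X Y (toW M f)))
        ⊓ conjugate f⁻¹ (artinParabolic M Y) := by
    apply le_antisymm
    · exact le_inf hml inf_le_right
    · exact le_inf (inf_le_left.trans hle) inf_le_right
  rw [heq]
  exact IH _ _ (by omega) _ _

theorem case_equal [Finite S] (hC : Crux M) (X Y : Set S)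
    (IH : ∀ X' Y' : Set S, X'.ncard + Y'.ncard < X.ncard + Y.ncard → ∀ g h : Artin M,
      IsParabolic M (conjugate g (artinParabolic M X') ⊓ conjugate h (artinParabolic M Y')))
    {f : Artin M} (hR : RRed M.toCoxeterSystem X (toW M f))
    (hL : LRed M.toCoxeterSystem Y (toW M f))
    (h1 : ∀ x ∈ X, ∃ y ∈ Y, toW M f * M.toCoxeterSystem.simple x = M.toCoxeterSystem.simple y * toW M f)
    (h2 : ∀ y ∈ Y, ∃ x ∈ X, toW M f * M.toCoxeterSystem.simple x = M.toCoxeterSystem.simple y * toW M f) :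
    IsParabolic M (artinParabolic M X ⊓ conjugate f⁻¹ (artinParabolic M Y)) := by
  have htau : conjugate (tau M (toW M f)) (artinParabolic M X) = artinParabolic M Y :=
    conj_tau M hR hL h1 h2
  have hXY : X.ncard ≤ Y.ncard := by
    have : conjugate (tau M (toW M f)) (artinParabolic M X)
        ≤ conjugate 1 (artinParabolic M Y) := by
      rw [conj_one, htau]
    exact (rank_le M this).1
  set c₀ : Artin M := f⁻¹ * tau M (toW M f) with hc₀
  have hc₀W : toW M c₀ ∈ WP M.toCoxeterSystem X := by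
    have : toW M c₀ = 1 := by
      rw [hc₀, map_mul, map_inv, toW_tau, inv_mul_cancel]
    rw [this]; exact one_mem _
  set c : Artin M := c₀ * (piX M X c₀)⁻¹ with hc
  have hK : InK M X c := inK_mul_piX_inv M X hc₀W
  have hconj : conjugate f⁻¹ (artinParabolic M Y) = conjugate c (artinParabolic M X) := by
    rw [← htau, conj_conj, hc, conj_mul_of_mem c₀ (inv_mem (piX_mem M X c₀))]
  rw [hconj]
  rcases hC X c hK with hall | ⟨Z, b, hZ, hb⟩
  · have hle : artinParabolic M X ≤ conjugate c (artinParabolic M X) := by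
      intro a ha
      rw [mem_conj]
      have : c⁻¹ * a * c = a := by
        rw [mul_assoc, hall a ha, ← mul_assoc, inv_mul_cancel, one_mul]
      rw [this]; exact ha
    rw [inf_eq_left.mpr hle]
    exact isParabolic_std M X
  · have hZc : Z.ncard < X.ncard := Set.ncard_lt_ncard hZ (Set.toFinite X)
    have hle : artinParabolic M X ⊓ conjugate c (artinParabolic M X)
        ≤ conjugate b (artinParabolic M Z) := by
      intro a ha
      obtain ⟨ha1, ha2⟩ := Subgroup.mem_inf.mp ha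
      exact hb a ha1 (comm_of_inK M X hK ha1 ha2)
    have heq : artinParabolic M X ⊓ conjugate c (artinParabolic M X)
        = (conjugate 1 (artinParabolic M X) ⊓ conjugate b (artinParabolic M Z))
          ⊓ conjugate c (artinParabolic M X) := by
      rw [conj_one]
      apply le_antisymm
      · exact le_inf (le_inf inf_le_left hle) inf_le_right
      · exact le_inf (inf_le_left.trans inf_le_left) inf_le_right
    obtain ⟨V, b', hV⟩ := IH X Z (by omega) 1 b
    have hVZ : V.ncard ≤ Z.ncard := by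
      have : conjugate b' (artinParabolic M V) ≤ conjugate b (artinParabolic M Z) := by
        rw [← hV]; exact inf_le_right
      exact (rank_le M this).1
    rw [heq, hV]
    exact IH V X (by omega) b' c

end Claimed.Agent.R156.PI
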