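import Claimed.Agent.R156.PI.P04

/-!
# PI leaf P05: the induction: `Crux ⇒` intersections of two parabolic subgroups are parabolic.

PROOFS.
* `main_step`: `normalise` gives `(a, f)`; by `isParabolic_conj_of` it suffices to treat `A_X ⊓ conjugate f⁻¹ A_Y`, `e = toW f`.
  (i) if `XY X Y e ≠ X`: `case_shrink`.
  (ii) else if `XY Y X e⁻¹ ≠ Y`: apply `case_shrink Y X` to `f⁻¹` (`toW f⁻¹ = e⁻¹`; `RRed Y e⁻¹`, `LRed X e⁻¹` by `rRed_inv_iff`, `lRed_inv_iff`; the `IH` with the two sets swapped:
       `inf_comm`, `add_comm`): `A_Y ⊓ conjugate f A_X` is parabolic (`inv_inv`), and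
       `A_X ⊓ conjugate f⁻¹ A_Y = conjugate f⁻¹ (A_Y ⊓ conjugate f A_X)` (`conj_inf`, `conj_conj`, `inv_mul_cancel`, `conj_one`, `inf_comm`).
  (iii) else `case_equal`: `h1` from `XY X Y e = X`; `h2`: for `y ∈ Y = XY Y X e⁻¹` there is `x ∈ X` with `e⁻¹ y = x e⁻¹`, i.e. `e x = y e`.
* `main`: strong induction on `X.ncard + Y.ncard` (`Nat.strong_induction_on` generalising `X Y`), using `main_step`.
-/

set_option autoImplicit false

namespace Claimed.Agent.R156.PI

open Claims.C0280 Claims.C0280.HarmonicArtin Claims.C0280.HarmonicArtin.ParabolicIntersections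
open CoxeterSystem

variable {S : Type} (M : CoxeterMatrix S)

theorem main_step [Finite S] (hC : Crux M) (X Y : Set S)
    (IH : ∀ X' Y' : Set S, X'.ncard + Y'.ncard < X.ncard + Y.ncard → ∀ g h : Artin M,
      IsParabolic M (conjugate g (artinParabolic M X') ⊓ conjugate h (artinParabolic M Y')))
    (g h : Artin M) :
    IsParabolic M (conjugate g (artinParabolic M X) ⊓ conjugate h (artinParabolic M Y)) := by
  obtain ⟨a, f, hR, hL, heq⟩ := normalise M X Y g h
  rw [heq]
  apply isParabolic_conj_of
  by_cases c1 : XY M X Y (toW M f) = X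
  · by_cases c2 : XY M Y X (toW M f)⁻¹ = Y
    · apply case_equal M hC X Y IH hR hL
      · intro x hx
        have hx' : x ∈ XY M X Y (toW M f) := by rw [c1]; exact hx
        exact hx'.2
      · intro y hy
        have hy' : y ∈ XY M Y X (toW M f)⁻¹ := by rw [c2]; exact hy
        obtain ⟨x, hx, hxy⟩ := hy'.2
        refine ⟨x, hx, ?_⟩
        have h3 : toW M f * ((toW M f)⁻¹ * M.toCoxeterSystem.simple y) * toW M f
            = toW M f * (M.toCoxeterSystem.simple x * (toW M f)⁻¹) * toW M f := by rw [hxy]
        rw [mul_inv_cancel_left, mul_assoc, mul_assoc, inv_mul_cancel, mul_one] at h3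
        exact h3.symm
    · have IH' : ∀ X' Y' : Set S, X'.ncard + Y'.ncard < Y.ncard + X.ncard → ∀ g h : Artin M,
          IsParabolic M (conjugate g (artinParabolic M X') ⊓ conjugate h (artinParabolic M Y')) := by
        intro X' Y' hlt g h
        exact IH X' Y' (by omega) g h
      have hf : toW M f⁻¹ = (toW M f)⁻¹ := map_inv _ _
      have key := case_shrink M Y X IH' (f := f⁻¹)
        (by rw [hf]; exact (rRed_inv_iff _ _ _).2 hL)
        (by rw [hf]; exact (lRed_inv_iff _ _ _).2 hR) (by rw [hf]; exact c2)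
      rw [inv_inv] at key
      have h4 : artinParabolic M X ⊓ conjugate f⁻¹ (artinParabolic M Y)
          = conjugate f⁻¹ (artinParabolic M Y ⊓ conjugate f (artinParabolic M X)) := by
        rw [conj_inf, conj_conj, inv_mul_cancel, conj_one, inf_comm]
      rw [h4]
      exact isParabolic_conj_of M key _
  · exact case_shrink M X Y IH hR hL c1

theorem main [Finite S] (hC : Crux M) (X Y : Set S) (g h : Artin M) :
    IsParabolic M (conjugate g (artinParabolic M X) ⊓ conjugate h (artinParabolic M Y)) := by
  have key : ∀ n : ℕ, ∀ X Y : Set S, X.ncard + Y.ncard = n → ∀ g h : Artin M,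
      IsParabolic M (conjugate g (artinParabolic M X) ⊓ conjugate h (artinParabolic M Y)) := by
    intro n
    induction n using Nat.strong_induction_on with
    | _ n ih =>
      intro X Y hn g h
      apply main_step M hC X Y _ g h
      intro X' Y' hlt g' h'
      exact ih _ (hn ▸ hlt) X' Y' rfl g' h'
  exact key _ X Y rfl g h

end Claimed.Agent.R156.PI
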